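import Vale.Agent.Helper13.SwitchChain

/-!
# Connectivity of the switch graph on the realizations of a degree vector

Any two simple graphs on `Fin n` with the same degree vector are joined by a finite
sequence of switches (classical; Petersen / Havel / Hakimi / Taylor).  Proof by a
processed-set induction: `P` is a set of vertices all of whose rows already agree in the
two graphs; pick `v` outside `P`, `w` a neighbour of `v` in `G` only, `w'` a neighbour of
`v` in `G'` only.  The numbers of neighbours outside `P` agree in `G` and `G'`, so in one of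
the two graphs there is a switch `vw, xw' -> vw', xw` (resp. with the roles of `w, w'`
exchanged) with `x` outside `P`; it brings the two neighbourhoods of `v` closer.
-/

open Finset BigOperators

namespace Vale.Agent.Helper6.KTV

open Classical
open Vale.Agent.Helper13.Switch

variable {n : ℕ}

/-- two graphs are joined by a finite sequence of switches -/
def SwConn (G G' : SimpleGraph (Fin n)) : Prop := Relation.ReflTransGen IsSwitch G G'

lemma isSwitch_symm {G G' : SimpleGraph (Fin n)} (h : IsSwitch G G') : IsSwitch G' G := by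
  obtain ⟨a, b, c, d, hab, hac, had, hbc, hbd, hcd, hal, rfl⟩ := h
  obtain ⟨h1, h2⟩ := switch_back hal hab hac had hbc hbd hcd
  exact ⟨a, c, b, d, hac, hab, had, hbc.symm, hcd, hbd, h1, h2.symm⟩

lemma swConn_symm {G G' : SimpleGraph (Fin n)} (h : SwConn G G') : SwConn G' G := by
  unfold SwConn at *
  induction h with
  | refl => exact Relation.ReflTransGen.refl
  | tail _ hbc ih => exact Relation.ReflTransGen.head (isSwitch_symm hbc) ih

/-- the rows of the vertices of `P` agree in `G` and `G'` -/
def Agree (P : Finset (Fin n)) (G G' : SimpleGraph (Fin n)) : Prop :=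
  ∀ u ∈ P, ∀ y, G.Adj u y ↔ G'.Adj u y

lemma exists_x (H : SimpleGraph (Fin n)) (P : Finset (Fin n)) (v w w' : Fin n)
    (hv : v ∉ P) (hw : w ∉ P) (hw' : w' ∉ P) (hne : v ≠ w')
    (hvw : H.Adj v w) (hvw' : ¬ H.Adj v w')
    (hle : ((H.neighborFinset w) \ P).card ≤ ((H.neighborFinset w') \ P).card) :
    ∃ x, x ∉ P ∧ x ≠ v ∧ x ≠ w ∧ x ≠ w' ∧ H.Adj w' x ∧ ¬ H.Adj w x := by
  set A := ((H.neighborFinset w') \ P).erase w with hA
  set B := ((H.neighborFinset w) \ P).erase w' with hB
  have hcard : B.card ≤ A.card := by
    by_cases hww : H.Adj w w'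
    · have h1 : w ∈ (H.neighborFinset w') \ P := by
        rw [Finset.mem_sdiff, SimpleGraph.mem_neighborFinset]; exact ⟨hww.symm, hw⟩
      have h2 : w' ∈ (H.neighborFinset w) \ P := by
        rw [Finset.mem_sdiff, SimpleGraph.mem_neighborFinset]; exact ⟨hww, hw'⟩
      rw [hA, hB, Finset.card_erase_of_mem h1, Finset.card_erase_of_mem h2]
      omega
    · have h1 : w ∉ (H.neighborFinset w') \ P := by
        rw [Finset.mem_sdiff, SimpleGraph.mem_neighborFinset]; exact fun h => hww h.1.symm
      have h2 : w' ∉ (H.neighborFinset w) \ P := by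
        rw [Finset.mem_sdiff, SimpleGraph.mem_neighborFinset]; exact fun h => hww h.1
      rw [hA, hB, Finset.erase_eq_of_notMem h1, Finset.erase_eq_of_notMem h2]
      exact hle
  have hvB : v ∈ B := by
    rw [hB, Finset.mem_erase, Finset.mem_sdiff, SimpleGraph.mem_neighborFinset]
    exact ⟨hne, hvw.symm, hv⟩
  have hvA : v ∉ A := by
    rw [hA, Finset.mem_erase, Finset.mem_sdiff, SimpleGraph.mem_neighborFinset]
    rintro ⟨-, h, -⟩
    exact hvw' h.symm
  by_contra hno
  push Not at hno
  have hsub : A ⊆ B.erase v := by
    intro x hx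
    have hxv : x ≠ v := fun h => hvA (h ▸ hx)
    rw [hA, Finset.mem_erase, Finset.mem_sdiff, SimpleGraph.mem_neighborFinset] at hx
    obtain ⟨hxw, hxadj, hxP⟩ := hx
    have hxw' : x ≠ w' := (H.ne_of_adj hxadj).symm
    have := hno x hxP hxv hxw hxw' hxadj
    rw [Finset.mem_erase, hB, Finset.mem_erase, Finset.mem_sdiff, SimpleGraph.mem_neighborFinset]
    exact ⟨hxv, hxw', this, hxP⟩
  have h1 := Finset.card_le_card hsub
  rw [Finset.card_erase_of_mem hvB] at h1
  have h2 : 0 < B.card := Finset.card_pos.mpr ⟨v, hvB⟩
  omega

lemma step (H : SimpleGraph (Fin n)) (P : Finset (Fin n)) (v w w' x : Fin n)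
    (hv : v ∉ P) (hw : w ∉ P) (hw' : w' ∉ P) (hx : x ∉ P)
    (hvw : v ≠ w) (hvw' : v ≠ w') (hvx : v ≠ x) (hww' : w ≠ w') (hwx : w ≠ x) (hw'x : w' ≠ x)
    (h1 : H.Adj v w) (h2 : ¬ H.Adj v w') (h3 : H.Adj w' x) (h4 : ¬ H.Adj w x) :
    IsSwitch H (switchGraph H v w w' x) ∧
    (∀ i, (switchGraph H v w w' x).degree i = H.degree i) ∧
    (∀ u ∈ P, ∀ y, (switchGraph H v w w' x).Adj u y ↔ H.Adj u y) ∧
    (∀ y, (switchGraph H v w w' x).Adj v y ↔ (y = w' ∨ (H.Adj v y ∧ y ≠ w))) := by
  have hal : Allowed H v w w' x := ⟨h1, h3, h2, h4⟩
  refine ⟨⟨v, w, w', x, hvw, hvw', hvx, hww', hwx, hw'x, hal, rfl⟩,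
    fun i => degree_switch hal hvw hvw' hvx hww' hwx hw'x i, ?_, ?_⟩
  · intro u hu y
    rw [switchGraph_adj]
    have huv : u ≠ v := fun h => hv (h ▸ hu)
    have huw : u ≠ w := fun h => hw (h ▸ hu)
    have huw' : u ≠ w' := fun h => hw' (h ▸ hu)
    have hux : u ≠ x := fun h => hx (h ▸ hu)
    constructor
    · rintro (⟨h, -, -⟩ | ⟨h, -⟩)
      · exact h
      · rcases h with (⟨hh, -⟩ | ⟨hh, -⟩) | (⟨hh, -⟩ | ⟨hh, -⟩)
        · exact absurd hh huv
        · exact absurd hh huw'
        · exact absurd hh huw
        · exact absurd hh hux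
    · intro h
      left
      refine ⟨h, ?_, ?_⟩
      · rintro (⟨hh, -⟩ | ⟨hh, -⟩)
        · exact huv hh
        · exact huw hh
      · rintro (⟨hh, -⟩ | ⟨hh, -⟩)
        · exact huw' hh
        · exact hux hh
  · intro y
    rw [switchGraph_adj]
    constructor
    · rintro (⟨h, hn1, -⟩ | ⟨h, -⟩)
      · right; exact ⟨h, fun hy => hn1 (Or.inl ⟨rfl, hy⟩)⟩
      · rcases h with (⟨-, hh⟩ | ⟨hh, -⟩) | (⟨hh, -⟩ | ⟨hh, -⟩)
        · left; exact hh
        · exact absurd hh hvw'
        · exact absurd hh hvw
        · exact absurd hh hvx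
    · rintro (hy | ⟨h, hy⟩)
      · right; exact ⟨Or.inl (Or.inl ⟨rfl, hy⟩), fun h => hvw' (h.trans hy)⟩
      · left
        refine ⟨h, ?_, ?_⟩
        · rintro (⟨-, hh⟩ | ⟨hh, -⟩)
          · exact hy hh
          · exact hvw hh
        · rintro (⟨hh, -⟩ | ⟨hh, -⟩)
          · exact hvw' hh
          · exact hvx hh

lemma resid_eq (P : Finset (Fin n)) (G G' : SimpleGraph (Fin n))
    (hdeg : ∀ i, G.degree i = G'.degree i) (hag : Agree P G G') (y : Fin n) :
    ((G.neighborFinset y) \ P).card = ((G'.neighborFinset y) \ P).card := by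
  have h1 : (G.neighborFinset y) ∩ P = (G'.neighborFinset y) ∩ P := by
    ext u
    simp only [Finset.mem_inter, SimpleGraph.mem_neighborFinset]
    constructor
    · rintro ⟨h, hu⟩; exact ⟨((hag u hu y).mp h.symm).symm, hu⟩
    · rintro ⟨h, hu⟩; exact ⟨((hag u hu y).mpr h.symm).symm, hu⟩
  have h2 := Finset.card_sdiff_add_card_inter (G.neighborFinset y) P
  have h3 := Finset.card_sdiff_add_card_inter (G'.neighborFinset y) P
  have h4 := hdeg y
  rw [← SimpleGraph.card_neighborFinset_eq_degree, ← SimpleGraph.card_neighborFinset_eq_degree] at h4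
  rw [h1] at h2
  omega

theorem swConn_aux : ∀ (k : ℕ) (P : Finset (Fin n)), (Finset.univ \ P).card = k →
    ∀ G G' : SimpleGraph (Fin n), (∀ i, G.degree i = G'.degree i) → Agree P G G' →
      SwConn G G' := by
  intro k
  induction k with
  | zero =>
    intro P hP G G' _ hag
    have hPu : ∀ u, u ∈ P := by
      intro u
      by_contra hu
      have : u ∈ Finset.univ \ P := by simp [hu]
      rw [Finset.card_eq_zero] at hP
      rw [hP] at this
      exact absurd this (Finset.notMem_empty u)
    have : G = G' := by
      ext a b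
      exact hag a (hPu a) b
    rw [this]
    exact Relation.ReflTransGen.refl
  | succ k ih =>
    intro P hP G G' hdeg hag
    have hne : (Finset.univ \ P).Nonempty := by
      rw [← Finset.card_pos, hP]; omega
    obtain ⟨v, hv⟩ := hne
    have hvP : v ∉ P := by simpa using hv
    have inner : ∀ (m : ℕ) (G G' : SimpleGraph (Fin n)), (∀ i, G.degree i = G'.degree i) →
        Agree P G G' →
        (Finset.univ.filter (fun y => G.Adj v y ∧ ¬ G'.Adj v y)).card = m → SwConn G G' := by
      intro m
      induction m with
      | zero =>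
        intro G G' hdeg hag hm
        have hsub : G.neighborFinset v ⊆ G'.neighborFinset v := by
          intro y hy
          rw [SimpleGraph.mem_neighborFinset] at hy ⊢
          by_contra hy'
          have : y ∈ Finset.univ.filter (fun y => G.Adj v y ∧ ¬ G'.Adj v y) := by
            simp [hy, hy']
          rw [Finset.card_eq_zero] at hm
          rw [hm] at this
          exact absurd this (Finset.notMem_empty y)
        have heq : G.neighborFinset v = G'.neighborFinset v := by
          apply Finset.eq_of_subset_of_card_le hsub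
          rw [SimpleGraph.card_neighborFinset_eq_degree,
            SimpleGraph.card_neighborFinset_eq_degree, hdeg v]
        apply ih (insert v P) _ G G' hdeg
        · intro u hu y
          rcases Finset.mem_insert.mp hu with rfl | hu
          · rw [← SimpleGraph.mem_neighborFinset, ← SimpleGraph.mem_neighborFinset, heq]
          · exact hag u hu y
        · have : Finset.univ \ insert v P = (Finset.univ \ P).erase v := by
            ext y
            simp only [Finset.mem_sdiff, Finset.mem_univ, true_and, Finset.mem_insert,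
              Finset.mem_erase]
            tauto
          rw [this, Finset.card_erase_of_mem hv, hP]; rfl
      | succ m ihm =>
        intro G G' hdeg hag hm
        have hne : (Finset.univ.filter (fun y => G.Adj v y ∧ ¬ G'.Adj v y)).Nonempty := by
          rw [← Finset.card_pos, hm]; omega
        obtain ⟨w, hw⟩ := hne
        have hwmem := hw
        rw [Finset.mem_filter] at hw
        obtain ⟨-, hvw, hvw'⟩ := hw
        have hex : ∃ w', G'.Adj v w' ∧ ¬ G.Adj v w' := by
          by_contra hno
          push Not at hno
          have hsub : G'.neighborFinset v ⊆ G.neighborFinset v := by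
            intro y hy
            rw [SimpleGraph.mem_neighborFinset] at hy ⊢
            exact hno y hy
          have heq : G'.neighborFinset v = G.neighborFinset v := by
            apply Finset.eq_of_subset_of_card_le hsub
            rw [SimpleGraph.card_neighborFinset_eq_degree,
              SimpleGraph.card_neighborFinset_eq_degree, hdeg v]
          have : w ∈ G'.neighborFinset v := by
            rw [heq, SimpleGraph.mem_neighborFinset]; exact hvw
          rw [SimpleGraph.mem_neighborFinset] at this
          exact hvw' this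
        obtain ⟨w', hw'1, hw'2⟩ := hex
        have hwP : w ∉ P := fun h => hvw' (((hag w h v).mp hvw.symm).symm)
        have hw'P : w' ∉ P := fun h => hw'2 (((hag w' h v).mpr hw'1.symm).symm)
        have hvw_ne : v ≠ w := G.ne_of_adj hvw
        have hvw'_ne : v ≠ w' := G'.ne_of_adj hw'1
        have hww' : w ≠ w' := fun h => hw'2 (h ▸ hvw)
        have hres := resid_eq P G G' hdeg hag
        rcases le_or_gt ((G.neighborFinset w \ P).card) ((G.neighborFinset w' \ P).card)
          with hle | hlt
        · obtain ⟨x, hxP, hxv, hxw, hxw', hx1, hx2⟩ :=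
            exists_x G P v w w' hvP hwP hw'P hvw'_ne hvw hw'2 hle
          obtain ⟨hsw, hdeg1, hag1, hadj1⟩ := step G P v w w' x hvP hwP hw'P hxP hvw_ne hvw'_ne
            hxv.symm hww' hxw.symm hxw'.symm hvw hw'2 hx1 hx2
          have hconn : SwConn (switchGraph G v w w' x) G' := by
            apply ihm
            · intro i; rw [hdeg1 i, hdeg i]
            · intro u hu y; rw [hag1 u hu y]; exact hag u hu y
            · have : Finset.univ.filter (fun y => (switchGraph G v w w' x).Adj v y ∧ ¬ G'.Adj v y)
                  = (Finset.univ.filter (fun y => G.Adj v y ∧ ¬ G'.Adj v y)).erase w := by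
                ext y
                simp only [Finset.mem_filter, Finset.mem_univ, true_and, Finset.mem_erase,
                  hadj1 y]
                constructor
                · rintro ⟨h | ⟨h, hy⟩, hn⟩
                  · exact absurd (h ▸ hw'1) hn
                  · exact ⟨hy, h, hn⟩
                · rintro ⟨hy, h, hn⟩
                  exact ⟨Or.inr ⟨h, hy⟩, hn⟩
              rw [this, Finset.card_erase_of_mem hwmem, hm]; rfl
          exact Relation.ReflTransGen.head hsw hconn
        · have hle' : (G'.neighborFinset w' \ P).card ≤ (G'.neighborFinset w \ P).card := by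
            rw [← hres w, ← hres w']; omega
          obtain ⟨x, hxP, hxv, hxw', hxw, hx1, hx2⟩ :=
            exists_x G' P v w' w hvP hw'P hwP hvw_ne hw'1 hvw' hle'
          obtain ⟨hsw, hdeg1, hag1, hadj1⟩ := step G' P v w' w x hvP hw'P hwP hxP hvw'_ne hvw_ne
            hxv.symm hww'.symm hxw'.symm hxw.symm hw'1 hvw' hx1 hx2
          have hconn : SwConn G (switchGraph G' v w' w x) := by
            apply ihm
            · intro i; rw [hdeg1 i, hdeg i]
            · intro u hu y; rw [hag1 u hu y]; exact hag u hu y
            · have : Finset.univ.filter (fun y => G.Adj v y ∧ ¬ (switchGraph G' v w' w x).Adj v y)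
                  = (Finset.univ.filter (fun y => G.Adj v y ∧ ¬ G'.Adj v y)).erase w := by
                ext y
                simp only [Finset.mem_filter, Finset.mem_univ, true_and, Finset.mem_erase,
                  hadj1 y]
                constructor
                · rintro ⟨h, hn⟩
                  push Not at hn
                  refine ⟨hn.1, h, fun h' => ?_⟩
                  have hyw' := hn.2 h'
                  exact hw'2 (hyw' ▸ h)
                · rintro ⟨hy, h, hn⟩
                  refine ⟨h, ?_⟩
                  rintro (h' | ⟨h', -⟩)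
                  · exact hy h'
                  · exact hn h'
              rw [this, Finset.card_erase_of_mem hwmem, hm]; rfl
          exact Relation.ReflTransGen.trans hconn
            (swConn_symm (Relation.ReflTransGen.single hsw))
    exact inner _ G G' hdeg hag rfl

/-- any two graphs with the same degrees are joined by switches -/
theorem swConn_of_degree_eq (G G' : SimpleGraph (Fin n)) (h : ∀ i, G.degree i = G'.degree i) :
    SwConn G G' :=
  swConn_aux _ ∅ rfl G G' h (fun u hu => absurd hu (Finset.notMem_empty u))

/-- **Connectivity of the switch graph**: any two realizations of `d` are joined by a finite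
sequence of switches through realizations of `d`. -/
theorem switch_connected (d : Fin n → ℕ) (G G' : Realization n d) :
    Relation.ReflTransGen (fun A B : Realization n d => IsSwitch A.1 B.1) G G' := by
  have h : SwConn G.1 G'.1 := swConn_of_degree_eq G.1 G'.1 (fun i => by rw [G.2 i, G'.2 i])
  have lift : ∀ H : SimpleGraph (Fin n), SwConn G.1 H → ∃ hH : ∀ i, H.degree i = d i,
      Relation.ReflTransGen (fun A B : Realization n d => IsSwitch A.1 B.1) G ⟨H, hH⟩ := by
    intro H hH
    induction hH with
    | refl => exact ⟨G.2, Relation.ReflTransGen.refl⟩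
    | tail _ hbc ih =>
      obtain ⟨hb, ihb⟩ := ih
      obtain ⟨a, b, c, e, hab, hac, had, hbc', hbd, hcd, hal, rfl⟩ := hbc
      refine ⟨fun i => by rw [degree_switch hal hab hac had hbc' hbd hcd i, hb i], ?_⟩
      exact Relation.ReflTransGen.tail ihb ⟨a, b, c, e, hab, hac, had, hbc', hbd, hcd, hal, rfl⟩
  obtain ⟨hH, hr⟩ := lift G'.1 h
  exact hr

/-- a function on the realizations of `d` that is invariant under switches is constant -/
theorem const_of_switch_invariant {α : Type*} (d : Fin n → ℕ) (f : Realization n d → α)
    (h : ∀ G G' : Realization n d, IsSwitch G.1 G'.1 → f G = f G') :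
    ∀ G G' : Realization n d, f G = f G' := by
  intro G G'
  have hc := switch_connected d G G'
  induction hc with
  | refl => rfl
  | tail _ hbc ih => exact ih.trans (h _ _ hbc)

/-- a switch `ab, cd -> ac, bd` does not touch any slot avoiding `a` and `d` -/
lemma switch_fixes_off_pair {G G' : SimpleGraph (Fin n)} (h : IsSwitch G G') :
    ∃ u v : Fin n, u ≠ v ∧
      ∀ x y : Fin n, x ≠ u → x ≠ v → y ≠ u → y ≠ v → (G.Adj x y ↔ G'.Adj x y) := by
  obtain ⟨a, b, c, e, hab, hac, had, hbc, hbd, hcd, hal, rfl⟩ := h
  refine ⟨a, e, had, ?_⟩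
  intro x y hxa hxe hya hye
  rw [switchGraph_adj]
  constructor
  · intro hxy
    left
    refine ⟨hxy, ?_, ?_⟩
    · rintro (⟨hh, -⟩ | ⟨-, hh⟩)
      · exact hxa hh
      · exact hya hh
    · rintro (⟨-, hh⟩ | ⟨hh, -⟩)
      · exact hye hh
      · exact hxe hh
  · rintro (⟨hxy, -, -⟩ | ⟨hh, -⟩)
    · exact hxy
    · rcases hh with (⟨hh, -⟩ | ⟨-, hh⟩) | (⟨-, hh⟩ | ⟨hh, -⟩)
      · exact absurd hh hxa
      · exact absurd hh hya
      · exact absurd hh hye
      · exact absurd hh hxe

/-- a function on the realizations of `d` that is invariant under every pair move (two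
realizations that agree on all slots avoiding two vertices `u, v`) is constant -/
theorem const_of_pair_invariant {α : Type*} (d : Fin n → ℕ) (f : Realization n d → α)
    (h : ∀ G G' : Realization n d, (∃ u v : Fin n, u ≠ v ∧
      ∀ x y : Fin n, x ≠ u → x ≠ v → y ≠ u → y ≠ v → (G.1.Adj x y ↔ G'.1.Adj x y)) →
        f G = f G') :
    ∀ G G' : Realization n d, f G = f G' :=
  const_of_switch_invariant d f (fun G G' hsw => h G G' (switch_fixes_off_pair hsw))

end Vale.Agent.Helper6.KTV
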